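import Vale.Agent.P269A.IF

/-!
# P269, block A: the Euler class of the obstruction bundle
-/

set_option autoImplicit false
set_option linter.all false

namespace Vale.Agent.P269AE

open Finset Polynomial P269A

/-- homogeneous of total degree `d` in the `λ_i` (weight `i`) and `H` (weight `1`) -/
def Hm (d : ℤ) (x : (MvPolynomial ℕ ℂ)[X]) : Prop :=
  ∀ e m, (x.coeff e).coeff m ≠ 0 → ((Finsupp.weight (fun i : ℕ => i) m : ℕ) : ℤ) + e = d

theorem Hm.zero (d : ℤ) : Hm d 0 := fun e m h => (h (by simp)).elim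

theorem Hm.add {d : ℤ} {x y : (MvPolynomial ℕ ℂ)[X]} (h : Hm d x) (h' : Hm d y) : Hm d (x + y) :=
  fun e m a => by
    by_cases c : (x.coeff e).coeff m = 0
    · exact h' e m fun o => a (by rw [coeff_add, MvPolynomial.coeff_add, c, o, add_zero])
    · exact h e m c

theorem Hm.sum {α : Type} {d : ℤ} {s : Finset α} {x : α → (MvPolynomial ℕ ℂ)[X]}
    (h : ∀ a ∈ s, Hm d (x a)) : Hm d (∑ a ∈ s, x a) :=
  Finset.sum_induction _ _ (fun _ _ => Hm.add) (Hm.zero d) h

theorem Hm.neg {d : ℤ} {x : (MvPolynomial ℕ ℂ)[X]} (h : Hm d x) : Hm d (-x) :=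
  fun e m a => h e m fun o => a (by rw [coeff_neg, MvPolynomial.coeff_neg, o, neg_zero])

theorem Hm.mul {d d' : ℤ} {x y : (MvPolynomial ℕ ℂ)[X]} (h : Hm d x) (h' : Hm d' y) :
    Hm (d + d') (x * y) := fun e m a => by
  classical
  rw [coeff_mul, MvPolynomial.coeff_sum] at a
  obtain ⟨p, hp, a⟩ := exists_ne_zero_of_sum_ne_zero a
  rw [MvPolynomial.coeff_mul] at a
  obtain ⟨q, hq, a⟩ := exists_ne_zero_of_sum_ne_zero a
  rw [← h _ _ (left_ne_zero_of_mul a), ← h' _ _ (right_ne_zero_of_mul a),
    ← mem_antidiagonal.1 hp, ← mem_antidiagonal.1 hq, map_add]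
  push_cast
  ring

theorem Hm.mon (j : ℕ) (c : ℂ) : Hm j (monomial j (MvPolynomial.C c)) := fun e m a => by
  classical
  rw [coeff_monomial] at a
  split_ifs at a with o
  · rw [MvPolynomial.coeff_C] at a
    split_ifs at a with o'
    · simp [← o', o]
    · exact (a rfl).elim
  · exact (a (by simp)).elim

theorem Hm.one : Hm 0 1 := by simpa using Hm.mon 0 1

theorem Hm.lam (i : ℕ) : Hm i (C (MvPolynomial.X i)) := fun e m a => by
  classical
  rw [coeff_C] at a
  split_ifs at a with o
  · rw [MvPolynomial.coeff_X'] at a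
    split_ifs at a with o'
    · simp [← o', o, Finsupp.weight_single]
    · exact (a rfl).elim
  · exact (a (by simp)).elim

theorem Hm.prod {α : Type} {s : Finset α} {d : α → ℤ} {x : α → (MvPolynomial ℕ ℂ)[X]}
    (h : ∀ a ∈ s, Hm (d a) (x a)) : Hm (∑ a ∈ s, d a) (∏ a ∈ s, x a) := by
  classical
  induction s using Finset.induction_on with
  | empty => simpa using Hm.one
  | insert a s ha ih =>
    rw [sum_insert ha, prod_insert ha]
    exact (h a (mem_insert_self _ _)).mul (ih fun b hb => h b (mem_insert_of_mem hb))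

theorem Hm.det {n : ℕ} {M : Matrix (Fin n) (Fin n) (MvPolynomial ℕ ℂ)[X]} {c : Fin n → ℤ}
    (h : ∀ i j : Fin n, Hm (c j - (i : ℕ)) (M i j)) : Hm (∑ j : Fin n, (c j - (j : ℕ))) M.det := by
  rw [Matrix.det_apply]
  refine Hm.sum fun σ _ => ?_
  have h1 := Hm.prod (s := univ) fun j _ => h (σ j) j
  rw [sum_sub_distrib, Equiv.sum_comp σ fun i => ((i : ℕ) : ℤ), ← sum_sub_distrib] at h1
  rcases Int.units_eq_one_or (Equiv.Perm.sign σ) with e | e
  · rwa [e, one_smul]
  · rw [e, Units.neg_smul, one_smul]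
    exact h1.neg

theorem Hm.res {f g : (MvPolynomial ℕ ℂ)[X][X]} {m n : ℕ} (hf : ∀ i ≤ m, Hm (m - i) (f.coeff i))
    (hg : ∀ i ≤ n, Hm (n - i) (g.coeff i)) : Hm (m * n) (resultant f g m n) := by
  have h := Hm.det (M := sylvester f g m n)
    (c := Fin.addCases (fun j : Fin m => (n + (j : ℕ) : ℤ)) fun j : Fin n => (m + (j : ℕ) : ℤ))
    fun i j => by
      induction j using Fin.addCases with
      | left j =>
        simp only [sylvester, Matrix.of_apply, Fin.addCases_left, Set.mem_Icc]
        split_ifs with o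
        · have := hg (i - j) (by omega)
          rwa [show ((n : ℤ) - (i - j : ℕ)) = n + j - i by omega] at this
        · exact Hm.zero _
      | right j =>
        simp only [sylvester, Matrix.of_apply, Fin.addCases_right, Set.mem_Icc]
        split_ifs with o
        · have := hf (i - j) (by omega)
          rwa [show ((m : ℤ) - (i - j : ℕ)) = m + j - i by omega] at this
        · exact Hm.zero _
  rw [Fin.sum_univ_add] at h
  simpa [resultant] using h

variable {ι : Type} (X : Coh ι)

theorem eul_Hm (g : ℕ) : Hm (g * X.r) (X.eul g) := by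
  refine Hm.res (fun i hi => ?_) fun i hi => ?_
  · rw [coeff_add, finsetSum_coeff]
    refine Hm.add ?_ (Hm.sum fun l hl => ?_)
    · rw [coeff_X_pow]
      split_ifs with o
      · simpa [o] using Hm.one
      · exact Hm.zero _
    · rw [coeff_monomial]
      split_ifs with o
      · have := mem_Icc.1 hl
        rw [show (g : ℤ) - i = l by omega]
        exact Hm.lam l
      · exact Hm.zero _
  · rw [finsetSum_coeff]
    refine Hm.sum fun l hl => ?_
    rw [coeff_monomial]
    split_ifs with o
    · have := mem_range.1 hl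
      rw [show (X.r : ℤ) - i = l by omega]
      exact Hm.mon l _
    · exact Hm.zero _

/-- **The coefficients of the Euler class are homogeneous.** -/
theorem eul_hom (g e : ℕ) :
    ((X.eul g).coeff e).IsWeightedHomogeneous (fun i : ℕ => i) (X.r * g - e) := fun m hm => by
  have := eul_Hm X g e m hm
  have h : Finsupp.weight (fun i : ℕ => i) m + e = g * X.r := by exact_mod_cast this
  rw [mul_comm]
  omega

theorem eul_le {g e : ℕ} (h : (X.eul g).coeff e ≠ 0) : e ≤ X.r * g := by
  obtain ⟨m, hm⟩ := MvPolynomial.ne_zero_iff.1 h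
  have := eul_Hm X g e m hm
  have h : Finsupp.weight (fun i : ℕ => i) m + e = g * X.r := by exact_mod_cast this
  rw [mul_comm]
  omega

theorem eul_zero : X.eul 0 = 1 := by simp [Coh.eul]

theorem eul_one : X.eul 1 = ∑ j ∈ range (X.r + 1),
    monomial j (MvPolynomial.C (X.γ j) * (-MvPolynomial.X 1) ^ (X.r - j)) := by
  rw [Coh.eul, Icc_self, sum_singleton, pow_one, Nat.sub_self, monomial_zero_left,
    resultant_X_add_C_left _ _ _ (natDegree_sum_le_of_forall_le _ _ fun j _ =>
      (natDegree_monomial_le _).trans (Nat.sub_le _ _)), eval_finsetSum]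
  refine sum_congr rfl fun j _ => ?_
  rw [eval_monomial, ← C_neg, ← C_pow, monomial_mul_C]

theorem eul_one_coeff {e : ℕ} (h : e ≤ X.r) :
    (X.eul 1).coeff e = MvPolynomial.C (X.γ e) * (-MvPolynomial.X 1) ^ (X.r - e) := by
  rw [eul_one, finsetSum_coeff]
  simp only [coeff_monomial]
  rw [sum_ite_eq', if_pos (mem_range.2 (by omega))]

theorem eul_zero_coeff (e : ℕ) : (X.eul 0).coeff e = if e = 0 then 1 else 0 := by
  rw [eul_zero, coeff_one]

end Vale.Agent.P269AE
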